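import Vale.Agent.Lib.P131.helper81.Reduction

/-!
# P131: reduction of the hyperinvariant subspace problem to operators whose double commutant
consists of injective operators with dense range

For a complex Hilbert space `H`:

* every nonscalar bounded operator on `H` has a nontrivial closed hyperinvariant subspace if
  and only if this holds for the nonscalar operators `T` such that every nonzero operator in
  the double commutant of `T` is injective with dense range;
* an operator without a nontrivial closed hyperinvariant subspace is of this kind;
* for a nonscalar operator `T` of this kind and every complex `c`, the operator `T - c` is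
  injective with dense range (so neither `T` nor its adjoint has an eigenvalue).
-/

namespace Vale.Agent.Results.P131.BicommutantReduction

open Vale.Agent.Lib.P131.H81

theorem result (H : Type*) [NormedAddCommGroup H] [InnerProductSpace ℂ H] [CompleteSpace H] :
    ((∀ T : H →L[ℂ] H, Nonscalar T → HasHyperinvariant T) ↔
      (∀ T : H →L[ℂ] H, Nonscalar T → QuasiaffineBicommutant T → HasHyperinvariant T)) ∧
    (∀ T : H →L[ℂ] H, ¬ HasHyperinvariant T → QuasiaffineBicommutant T) ∧
    (∀ T : H →L[ℂ] H, Nonscalar T → QuasiaffineBicommutant T → ∀ c : ℂ,
      Function.Injective (T - c • (1 : H →L[ℂ] H)) ∧
        DenseRange (T - c • (1 : H →L[ℂ] H))) :=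
  reduction H

end Vale.Agent.Results.P131.BicommutantReduction
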